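import Vale.Agent.Lib.P074.Third.Basic

/-!
# P074: the weights of a power diagram are Lipschitz in the sites

`lip_of_centroid`: the centroid inequality, the existence of power diagrams with prescribed
masses and the continuity of the weights in the masses imply `LipStatement`
(mixed second difference of the Kantorovich functional).
-/

namespace Vale.Agent.Lib.P074.Lip

open MeasureTheory

variable {d n : ℕ}

/-- The Kantorovich functional: the integral of the piecewise affine potential. -/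
noncomputable def Phi (K : Set (E d)) (y : Fin (n + 1) → E d) (ψ : Fin (n + 1) → ℝ) : ℝ :=
  ∫ x, ppot y ψ x ∂(unif K)

lemma continuous_ppot (y : Fin (n + 1) → E d) (ψ : Fin (n + 1) → ℝ) :
    Continuous (ppot y ψ) := by
  unfold ppot
  exact Continuous.finset_sup'_apply Finset.univ_nonempty (fun k _ => by fun_prop)

lemma integrable_unif {K : Set (E d)} (hK : IsCompact K) (hint : (interior K).Nonempty)
    {F : Type*} [NormedAddCommGroup F] {f : E d → F} (hf : Continuous f) :
    Integrable f (unif K) := by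
  unfold unif
  exact (hf.continuousOn.integrableOn_compact hK).smul_measure
    (ENNReal.inv_ne_top.mpr (volume_pos_of_interior hint).ne')

/-- The joint subgradient inequality for the Kantorovich functional. -/
lemma phi_ge {K : Set (E d)} (hK : IsCompact K) (hint : (interior K).Nonempty)
    {y : Fin (n + 1) → E d} (hy : Function.Injective y) (y' : Fin (n + 1) → E d)
    (ψ ψ' : Fin (n + 1) → ℝ) :
    Phi K y ψ - ∑ k, cmass K y ψ k * (ψ' k - ψ k) + ∑ k, inner ℝ (cmom K y ψ k) (y' k - y k)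
      ≤ Phi K y' ψ' := by
  have hprob : IsProbabilityMeasure (unif K) := unif_isProbabilityMeasure hK hint
  have hi1 : Integrable (ppot y ψ) (unif K) := integrable_unif hK hint (continuous_ppot y ψ)
  have hi2 : Integrable (ppot y' ψ') (unif K) := integrable_unif hK hint (continuous_ppot y' ψ')
  have hid : Integrable (fun x : E d => x) (unif K) := integrable_unif hK hint continuous_id
  unfold Phi
  rw [integral_eq_sum_pcell hK hy ψ _ hi1, integral_eq_sum_pcell hK hy ψ _ hi2,
    ← Finset.sum_sub_distrib, ← Finset.sum_add_distrib]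
  refine Finset.sum_le_sum fun k _ => ?_
  have hm : MeasurableSet (pcell K y ψ k) := measurableSet_pcell hK.isClosed y ψ k
  have h1 : ∫ x in pcell K y ψ k, (ppot y ψ x - (ψ' k - ψ k) + inner ℝ x (y' k - y k)) ∂(unif K)
      ≤ ∫ x in pcell K y ψ k, ppot y' ψ' x ∂(unif K) := by
    refine setIntegral_mono_on ?_ hi2.integrableOn hm fun x hx => ?_
    · refine ((hi1.sub (integrable_const _)).add ?_).integrableOn
      exact integrable_unif hK hint (by fun_prop)
    · have e1 := ppot_eq_of_mem hx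
      have e2 := ppot_ge y' ψ' x k
      have e3 : inner ℝ x (y' k - y k) = inner ℝ x (y' k) - inner ℝ x (y k) :=
        inner_sub_right x (y' k) (y k)
      rw [e1, e3]
      linarith
  have h2 : ∫ x in pcell K y ψ k, (ppot y ψ x - (ψ' k - ψ k) + inner ℝ x (y' k - y k)) ∂(unif K)
      = ∫ x in pcell K y ψ k, ppot y ψ x ∂(unif K) - cmass K y ψ k * (ψ' k - ψ k)
        + inner ℝ (cmom K y ψ k) (y' k - y k) := by
    rw [integral_add, integral_sub, setIntegral_const_pcell hK hint]
    · congr 1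
      unfold cmom
      have := integral_inner (𝕜 := ℝ) (hid.integrableOn (s := pcell K y ψ k)) (y' k - y k)
      rw [real_inner_comm (y' k - y k), ← this]
      refine integral_congr_ae (Filter.Eventually.of_forall fun x => ?_)
      exact real_inner_comm _ _
    · exact hi1.integrableOn
    · exact (integrable_const _)
    · exact (hi1.sub (integrable_const _)).integrableOn
    · exact (integrable_unif hK hint (by fun_prop)).integrableOn
  linarith

/-- The Kantorovich functional plus the linear term in the weights. -/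
noncomputable def Acal (K : Set (E d)) (y : Fin (n + 1) → E d) (ψ m : Fin (n + 1) → ℝ) : ℝ :=
  Phi K y ψ + ∑ k, m k * ψ k

/-- Same sites, two mass vectors: concavity in the masses. -/
lemma acal_masses {K : Set (E d)} (hK : IsCompact K) (hint : (interior K).Nonempty)
    {y : Fin (n + 1) → E d} (hy : Function.Injective y) (ψ χ m m' : Fin (n + 1) → ℝ)
    (hm : ∀ k, cmass K y ψ k = m k) :
    Acal K y ψ m + ∑ k, (m' k - m k) * χ k ≤ Acal K y χ m' := by
  have h := phi_ge hK hint hy y ψ χ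
  simp only [sub_self, inner_zero_right, Finset.sum_const_zero, add_zero, hm] at h
  unfold Acal
  have e : ∑ k, m k * (χ k - ψ k) = ∑ k, m k * χ k - ∑ k, m k * ψ k := by
    rw [← Finset.sum_sub_distrib]
    exact Finset.sum_congr rfl fun k _ => by ring
  have e2 : ∑ k, (m' k - m k) * χ k = ∑ k, m' k * χ k - ∑ k, m k * χ k := by
    rw [← Finset.sum_sub_distrib]
    exact Finset.sum_congr rfl fun k _ => by ring
  rw [e] at h
  rw [e2]
  linarith

/-- Same masses, two site families: convexity in the sites. -/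
lemma acal_sites {K : Set (E d)} (hK : IsCompact K) (hint : (interior K).Nonempty)
    {y : Fin (n + 1) → E d} (hy : Function.Injective y) (y' : Fin (n + 1) → E d)
    (ψ ψ' m : Fin (n + 1) → ℝ) (hm : ∀ k, cmass K y ψ k = m k) :
    Acal K y ψ m + ∑ k, inner ℝ (cmom K y ψ k) (y' k - y k) ≤ Acal K y' ψ' m := by
  have h := phi_ge hK hint hy y' ψ ψ'
  simp only [hm] at h
  unfold Acal
  have e : ∑ k, m k * (ψ' k - ψ k) = ∑ k, m k * ψ' k - ∑ k, m k * ψ k := by
    rw [← Finset.sum_sub_distrib]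
    exact Finset.sum_congr rfl fun k _ => by ring
  rw [e] at h
  linarith

/-- Weighted Cauchy-Schwarz. -/
lemma cs_weighted {ι : Type*} [Fintype ι] (a b m : ι → ℝ) (hm : ∀ k, 0 < m k) :
    (∑ k, a k * b k) ^ 2 ≤ (∑ k, a k ^ 2 / m k) * (∑ k, m k * b k ^ 2) := by
  have h := Finset.sum_mul_sq_le_sq_mul_sq Finset.univ (fun k => a k / Real.sqrt (m k))
    (fun k => Real.sqrt (m k) * b k)
  have e1 : ∀ k, a k / Real.sqrt (m k) * (Real.sqrt (m k) * b k) = a k * b k := by
    intro k
    have : Real.sqrt (m k) ≠ 0 := (Real.sqrt_pos.mpr (hm k)).ne'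
    field_simp
  have e2 : ∀ k, (a k / Real.sqrt (m k)) ^ 2 = a k ^ 2 / m k := by
    intro k
    rw [div_pow, Real.sq_sqrt (hm k).le]
  have e3 : ∀ k, (Real.sqrt (m k) * b k) ^ 2 = m k * b k ^ 2 := by
    intro k
    rw [mul_pow, Real.sq_sqrt (hm k).le]
  simpa only [e1, e2, e3] using h

/-- The sites at time `i / N` on the segment from `y` to `y'`. -/
noncomputable def site (y y' : Fin (n + 1) → E d) (N i : ℕ) : Fin (n + 1) → E d :=
  fun k => y k + ((i : ℝ) / N) • (y' k - y k)

lemma site_succ_sub (y y' : Fin (n + 1) → E d) (N i : ℕ) (k : Fin (n + 1)) :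
    site y y' N (i + 1) k - site y y' N i k = (1 / (N : ℝ)) • (y' k - y k) := by
  unfold site
  rw [add_sub_add_left_eq_sub, ← sub_smul]
  congr 1
  push_cast
  ring

/-- The mixed second difference along a uniform partition of the segment of sites. -/
lemma chain_bound {K : Set (E d)} (hK : IsCompact K) (hint : (interior K).Nonempty) (C : ℝ)
    (hcen : ∀ (y : Fin (n + 1) → E d) (ψ ψ' : Fin (n + 1) → ℝ), Function.Injective y →
      (∀ k, 0 < cmass K y ψ k) →
      (∀ k, |cmass K y ψ' k - cmass K y ψ k| ≤ cmass K y ψ k / 2) →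
      ∑ k, ‖cmom K y ψ' k - cmom K y ψ k‖ ^ 2 / cmass K y ψ k
        ≤ C * ∑ k, (cmass K y ψ' k - cmass K y ψ k) ^ 2 / cmass K y ψ k)
    (N : ℕ) (hN : 0 < N) (y y' : Fin (n + 1) → E d) (m m' : Fin (n + 1) → ℝ)
    (hmpos : ∀ k, 0 < m k) (hclose : ∀ k, |m' k - m k| ≤ m k / 2)
    (Ψ X : ℕ → Fin (n + 1) → ℝ)
    (hinj : ∀ i ≤ N, Function.Injective (site y y' N i))
    (hΨ : ∀ i ≤ N, ∀ k, cmass K (site y y' N i) (Ψ i) k = m k)
    (hX : ∀ i ≤ N, ∀ k, cmass K (site y y' N i) (X i) k = m' k) :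
    ∑ k, (m' k - m k) * (X N k - Ψ 0 k)
      ≤ Real.sqrt (C * (∑ k, (m' k - m k) ^ 2 / m k) * (∑ k, m k * ‖y' k - y k‖ ^ 2))
        + (∑ k, inner ℝ (cmom K (site y y' N N) (Ψ N) k) (y' k - y k)
            - ∑ k, inner ℝ (cmom K (site y y' N 0) (Ψ 0) k) (y' k - y k)) / N := by
  have hNpos : (0 : ℝ) < N := by exact_mod_cast hN
  set a : ℕ → ℝ := fun i => Acal K (site y y' N i) (Ψ i) m with ha
  set a' : ℕ → ℝ := fun i => Acal K (site y y' N i) (X i) m' with ha'
  set P : ℕ → ℝ := fun i => ∑ k, inner ℝ (cmom K (site y y' N i) (Ψ i) k) (y' k - y k) with hP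
  set P' : ℕ → ℝ := fun i => ∑ k, inner ℝ (cmom K (site y y' N i) (X i) k) (y' k - y k) with hP'
  set R : ℝ :=
    Real.sqrt (C * (∑ k, (m' k - m k) ^ 2 / m k) * (∑ k, m k * ‖y' k - y k‖ ^ 2)) with hR
  have h4 : ∀ i < N, a i + P i / N ≤ a (i + 1) := by
    intro i hi
    have h := acal_sites hK hint (hinj i hi.le) (site y y' N (i + 1)) (Ψ i) (Ψ (i + 1)) m
      (hΨ i hi.le)
    have e : ∑ k, inner ℝ (cmom K (site y y' N i) (Ψ i) k)
        (site y y' N (i + 1) k - site y y' N i k) = P i / N := by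
      simp only [site_succ_sub, real_inner_smul_right, hP]
      rw [← Finset.mul_sum]
      ring
    rw [e] at h
    exact h
  have h3 : ∀ i < N, a' (i + 1) - P' (i + 1) / N ≤ a' i := by
    intro i hi
    have h := acal_sites hK hint (hinj (i + 1) hi) (site y y' N i) (X (i + 1)) (X i) m'
      (hX (i + 1) hi)
    have e0 : ∀ k, site y y' N i k - site y y' N (i + 1) k = -((1 / (N : ℝ)) • (y' k - y k)) :=
      fun k => by rw [← site_succ_sub y y' N i k, neg_sub]
    have e : ∑ k, inner ℝ (cmom K (site y y' N (i + 1)) (X (i + 1)) k)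
        (site y y' N i k - site y y' N (i + 1) k) = -(P' (i + 1) / N) := by
      simp only [e0, inner_neg_right, real_inner_smul_right, Finset.sum_neg_distrib, hP']
      rw [← Finset.mul_sum]
      ring
    rw [e] at h
    linarith
  have hsum1 : ∀ j ≤ N, a 0 + (∑ i ∈ Finset.range j, P i) / N ≤ a j := by
    intro j
    induction j with
    | zero => intro _; simp
    | succ j ih =>
      intro hj
      have h1 := ih (Nat.le_of_succ_le hj)
      have h2 := h4 j hj
      rw [Finset.sum_range_succ, add_div]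
      linarith
  have hsum2 : ∀ j ≤ N, a' j ≤ a' 0 + (∑ i ∈ Finset.range j, P' (i + 1)) / N := by
    intro j
    induction j with
    | zero => intro _; simp
    | succ j ih =>
      intro hj
      have h1 := ih (Nat.le_of_succ_le hj)
      have h2 := h3 j hj
      rw [Finset.sum_range_succ, add_div]
      linarith
  have h1 : a N + ∑ k, (m' k - m k) * X N k ≤ a' N :=
    acal_masses hK hint (hinj N le_rfl) (Ψ N) (X N) m m' (hΨ N le_rfl)
  have h2 : a' 0 + ∑ k, (m k - m' k) * Ψ 0 k ≤ a 0 :=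
    acal_masses hK hint (hinj 0 (Nat.zero_le _)) (X 0) (Ψ 0) m' m (hX 0 (Nat.zero_le _))
  have h5 : ∀ j ≤ N, P' j - P j ≤ R := by
    intro j hj
    have hc := hcen (site y y' N j) (Ψ j) (X j) (hinj j hj)
      (fun k => by rw [hΨ j hj k]; exact hmpos k)
      (fun k => by rw [hΨ j hj k, hX j hj k]; exact hclose k)
    simp only [hΨ j hj, hX j hj] at hc
    have hY : 0 ≤ ∑ k, m k * ‖y' k - y k‖ ^ 2 :=
      Finset.sum_nonneg fun k _ => mul_nonneg (hmpos k).le (sq_nonneg _)
    have e : P' j - P j = ∑ k, inner ℝ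
        (cmom K (site y y' N j) (X j) k - cmom K (site y y' N j) (Ψ j) k) (y' k - y k) := by
      simp only [hP, hP', inner_sub_left, Finset.sum_sub_distrib]
    have hle : P' j - P j ≤ ∑ k,
        ‖cmom K (site y y' N j) (X j) k - cmom K (site y y' N j) (Ψ j) k‖ * ‖y' k - y k‖ := by
      rw [e]
      exact Finset.sum_le_sum fun k _ => real_inner_le_norm _ _
    have hcs := cs_weighted
      (fun k => ‖cmom K (site y y' N j) (X j) k - cmom K (site y y' N j) (Ψ j) k‖)
      (fun k => ‖y' k - y k‖) m hmpos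
    have hsq : (∑ k, ‖cmom K (site y y' N j) (X j) k - cmom K (site y y' N j) (Ψ j) k‖
        * ‖y' k - y k‖) ^ 2
        ≤ C * (∑ k, (m' k - m k) ^ 2 / m k) * (∑ k, m k * ‖y' k - y k‖ ^ 2) :=
      hcs.trans (mul_le_mul_of_nonneg_right hc hY)
    exact hle.trans ((le_abs_self _).trans (Real.abs_le_sqrt hsq))
  have e1 : ∑ k, (m' k - m k) * (X N k - Ψ 0 k)
      = ∑ k, (m' k - m k) * X N k + ∑ k, (m k - m' k) * Ψ 0 k := by
    rw [← Finset.sum_add_distrib]
    exact Finset.sum_congr rfl fun k _ => by ring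
  have h6 : ∑ i ∈ Finset.range N, P' (i + 1) ≤ ∑ i ∈ Finset.range N, (P (i + 1) + R) :=
    Finset.sum_le_sum fun i hi => by
      have := h5 (i + 1) (Finset.mem_range.mp hi)
      linarith
  have h7 : ∑ i ∈ Finset.range N, (P (i + 1) + R) = ∑ i ∈ Finset.range N, P (i + 1) + N * R := by
    rw [Finset.sum_add_distrib, Finset.sum_const, Finset.card_range, nsmul_eq_mul]
  have h8 : ∑ i ∈ Finset.range N, P (i + 1) - ∑ i ∈ Finset.range N, P i = P N - P 0 := by
    rw [← Finset.sum_sub_distrib]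
    exact Finset.sum_range_sub P N
  have h9 := hsum1 N le_rfl
  have h10 := hsum2 N le_rfl
  have h11 : (∑ i ∈ Finset.range N, P' (i + 1)) / N
      ≤ (∑ i ∈ Finset.range N, P i) / N + (P N - P 0) / N + R := by
    have : (∑ i ∈ Finset.range N, P i) / N + (P N - P 0) / N + R
        = (∑ i ∈ Finset.range N, P i + (P N - P 0) + N * R) / N := by
      field_simp
    rw [this]
    exact div_le_div_of_nonneg_right (by linarith) hNpos.le
  rw [e1]
  linarith

lemma site_zero (y y' : Fin (n + 1) → E d) (N : ℕ) : site y y' N 0 = y := by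
  funext k
  simp [site]

lemma site_self (y y' : Fin (n + 1) → E d) (N : ℕ) (hN : 0 < N) : site y y' N N = y' := by
  funext k
  have : ((N : ℝ) / N) = 1 := div_self (by exact_mod_cast hN.ne')
  simp [site, this]

/-- The times at which the moving sites collide form a finite set. -/
lemma finite_bad (y y' : Fin (n + 1) → E d) (hy : Function.Injective y) :
    {t : ℝ | ¬ Function.Injective (fun k => y k + t • (y' k - y k))}.Finite := by
  have hsub : {t : ℝ | ¬ Function.Injective (fun k => y k + t • (y' k - y k))}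
      ⊆ ⋃ p : Fin (n + 1) × Fin (n + 1),
        {t : ℝ | p.1 ≠ p.2 ∧ y p.1 + t • (y' p.1 - y p.1) = y p.2 + t • (y' p.2 - y p.2)} := by
    intro t ht
    simp only [Set.mem_ofPred_eq, Function.Injective, not_forall] at ht
    obtain ⟨j, k, hjk, hne⟩ := ht
    exact Set.mem_iUnion.mpr ⟨(j, k), hne, hjk⟩
  refine Set.Finite.subset (Set.finite_iUnion fun p => ?_) hsub
  refine Set.Subsingleton.finite ?_
  rintro t ⟨hne, ht⟩ t' ⟨-, ht'⟩
  by_contra htt
  have h1 : (t - t') • ((y' p.1 - y p.1) - (y' p.2 - y p.2)) = 0 := by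
    have : (t - t') • ((y' p.1 - y p.1) - (y' p.2 - y p.2))
        = (y p.1 + t • (y' p.1 - y p.1) - (y p.2 + t • (y' p.2 - y p.2)))
          - (y p.1 + t' • (y' p.1 - y p.1) - (y p.2 + t' • (y' p.2 - y p.2))) := by
      simp only [sub_smul, smul_sub]
      abel
    rw [this, ht, ht']
    simp
  have h2 : (y' p.1 - y p.1) - (y' p.2 - y p.2) = 0 := by
    rcases smul_eq_zero.mp h1 with h | h
    · exact absurd (sub_eq_zero.mp h) htt
    · exact h
  have h3 : y' p.1 - y p.1 = y' p.2 - y p.2 := sub_eq_zero.mp h2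
  rw [h3] at ht
  exact hne (hy (add_right_cancel ht))

/-- Arbitrarily large `N` whose interior partition points `i / N` avoid a given finite set. -/
lemma exists_good (S : Set ℝ) (hS : S.Finite) (N₀ : ℕ) :
    ∃ N : ℕ, N₀ ≤ N ∧ 0 < N ∧ ∀ i : ℕ, 0 < i → i < N → ((i : ℝ) / N) ∉ S := by
  classical
  by_contra hcon
  simp only [not_exists, not_and, not_forall, not_not] at hcon
  have hbad : ∀ p : ℕ, p.Prime → N₀ ≤ p → ∃ i : ℕ, 0 < i ∧ i < p ∧ ((i : ℝ) / p) ∈ S := by
    intro p hp hp0
    obtain ⟨i, hi0, hip, hiS⟩ := hcon p hp0 hp.pos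
    exact ⟨i, hi0, hip, hiS⟩
  set f : ℕ → ℝ := fun p =>
    if h : ∃ i : ℕ, 0 < i ∧ i < p ∧ ((i : ℝ) / p) ∈ S then ((h.choose : ℕ) : ℝ) / p else 0 with hf
  have hinf : {p : ℕ | p.Prime ∧ N₀ ≤ p}.Infinite := by
    refine Set.infinite_of_forall_exists_gt fun a => ?_
    obtain ⟨p, hp1, hp2⟩ := Nat.exists_infinite_primes (max N₀ (a + 1))
    exact ⟨p, ⟨hp2, (le_max_left _ _).trans hp1⟩, lt_of_lt_of_le (Nat.lt_succ_self a)
      ((le_max_right _ _).trans hp1)⟩
  have hmaps : Set.MapsTo f {p : ℕ | p.Prime ∧ N₀ ≤ p} S := by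
    rintro p ⟨hp, hp0⟩
    have h := hbad p hp hp0
    simp only [hf, dif_pos h]
    exact h.choose_spec.2.2
  have hinj : Set.InjOn f {p : ℕ | p.Prime ∧ N₀ ≤ p} := by
    rintro p ⟨hp, hp0⟩ q ⟨hq, hq0⟩ hpq
    have h1 := hbad p hp hp0
    have h2 := hbad q hq hq0
    simp only [hf, dif_pos h1, dif_pos h2] at hpq
    obtain ⟨hi0, hip, -⟩ := h1.choose_spec
    obtain ⟨hj0, hjq, -⟩ := h2.choose_spec
    set i := h1.choose
    set j := h2.choose
    have hp' : (p : ℝ) ≠ 0 := by exact_mod_cast hp.pos.ne'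
    have hq' : (q : ℝ) ≠ 0 := by exact_mod_cast hq.pos.ne'
    have e : (i : ℝ) * q = j * p := by
      field_simp at hpq
      linarith
    have e' : i * q = j * p := by exact_mod_cast e
    have hdvd : p ∣ i * q := ⟨j, by rw [e']; ring⟩
    rcases (Nat.Prime.dvd_mul hp).mp hdvd with h | h
    · exact absurd (Nat.le_of_dvd hi0 h) (not_le.mpr hip)
    · exact (Nat.prime_dvd_prime_iff_eq hp hq).mp h
  exact (Set.infinite_of_injOn_mapsTo hinj hmaps hinf) hS

/-- The mixed second difference: the response of the weights to a mass perturbation `ε η`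
at the new sites, compared with the old weights. -/
lemma step_eps {K : Set (E d)} (hK : IsCompact K) (hint : (interior K).Nonempty) (C : ℝ)
    (hcen : ∀ (y : Fin (n + 1) → E d) (ψ ψ' : Fin (n + 1) → ℝ), Function.Injective y →
      (∀ k, 0 < cmass K y ψ k) →
      (∀ k, |cmass K y ψ' k - cmass K y ψ k| ≤ cmass K y ψ k / 2) →
      ∑ k, ‖cmom K y ψ' k - cmom K y ψ k‖ ^ 2 / cmass K y ψ k
        ≤ C * ∑ k, (cmass K y ψ' k - cmass K y ψ k) ^ 2 / cmass K y ψ k)
    (hex : ∀ y : Fin (n + 1) → E d, Function.Injective y →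
      ∀ m : Fin (n + 1) → ℝ, (∀ k, 0 < m k) → ∑ k, m k = 1 →
        ∃ ψ : Fin (n + 1) → ℝ, ∀ k, cmass K y ψ k = m k)
    (y y' : Fin (n + 1) → E d) (ψ ψ' : Fin (n + 1) → ℝ) (hy : Function.Injective y)
    (hy' : Function.Injective y') (hpos : ∀ k, 0 < cmass K y ψ k)
    (hmass : ∀ k, cmass K y' ψ' k = cmass K y ψ k)
    (η : Fin (n + 1) → ℝ) (hη : ∑ k, η k = 0) (ε : ℝ) (hε : 0 < ε)
    (hεη : ∀ k, ε * |η k| ≤ cmass K y ψ k / 2) (χ' : Fin (n + 1) → ℝ)
    (hχ' : ∀ k, cmass K y' χ' k = cmass K y ψ k + ε * η k) :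
    ∑ k, η k * (χ' k - ψ k)
      ≤ Real.sqrt (C * (∑ k, η k ^ 2 / cmass K y ψ k)
          * (∑ k, cmass K y ψ k * ‖y' k - y k‖ ^ 2)) := by
  set m : Fin (n + 1) → ℝ := fun k => cmass K y ψ k with hm
  set m' : Fin (n + 1) → ℝ := fun k => m k + ε * η k with hm'
  have hmsum : ∑ k, m k = 1 := sum_cmass hK hint hy ψ
  have habs : ∀ k, |ε * η k| = ε * |η k| := fun k => by rw [abs_mul, abs_of_pos hε]
  have hm'pos : ∀ k, 0 < m' k := by
    intro k
    have h1 := hεη k
    have h2 := neg_abs_le (ε * η k)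
    have h3 := hpos k
    rw [habs k] at h2
    simp only [hm']
    have : m k = cmass K y ψ k := rfl
    linarith
  have hm'sum : ∑ k, m' k = 1 := by
    simp only [hm', Finset.sum_add_distrib, ← Finset.mul_sum, hη, mul_zero, add_zero, hmsum]
  have hclose : ∀ k, |m' k - m k| ≤ m k / 2 := by
    intro k
    simp only [hm', add_sub_cancel_left]
    rw [habs k]
    exact hεη k
  set R : ℝ := Real.sqrt (C * (∑ k, η k ^ 2 / m k) * (∑ k, m k * ‖y' k - y k‖ ^ 2)) with hR
  set B : ℝ := ∑ k, inner ℝ (cmom K y' ψ' k) (y' k - y k)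
    - ∑ k, inner ℝ (cmom K y ψ k) (y' k - y k) with hB
  have hS := finite_bad y y' hy
  have key : ∀ N₀ : ℕ, ∃ N : ℕ, N₀ ≤ N ∧ 0 < N ∧
      ε * ∑ k, η k * (χ' k - ψ k) ≤ ε * R + B / N := by
    intro N₀
    obtain ⟨N, hN0, hNpos, hgood⟩ := exists_good _ hS N₀
    refine ⟨N, hN0, hNpos, ?_⟩
    have hinj : ∀ i ≤ N, Function.Injective (site y y' N i) := by
      intro i hi
      rcases Nat.eq_zero_or_pos i with h0 | h0
      · rw [h0, site_zero]
        exact hy
      · rcases Nat.lt_or_ge i N with hlt | hge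
        · have := hgood i h0 hlt
          simp only [Set.mem_ofPred_eq, not_not] at this
          exact this
        · have : i = N := le_antisymm hi hge
          rw [this, site_self y y' N hNpos]
          exact hy'
    have hΨex : ∀ i : ℕ, ∃ w : Fin (n + 1) → ℝ,
        (i ≤ N → ∀ k, cmass K (site y y' N i) w k = m k) ∧ (i = 0 → w = ψ) ∧ (i = N → w = ψ') := by
      intro i
      by_cases h0 : i = 0
      · refine ⟨ψ, fun _ k => ?_, fun _ => rfl, fun h => ?_⟩
        · rw [h0, site_zero]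
        · exact absurd (h0 ▸ h) hNpos.ne
      · by_cases hN : i = N
        · refine ⟨ψ', fun _ k => ?_, fun h => absurd h h0, fun _ => rfl⟩
          rw [hN, site_self y y' N hNpos]
          exact hmass k
        · by_cases hi : i ≤ N
          · obtain ⟨w, hw⟩ := hex (site y y' N i) (hinj i hi) m hpos hmsum
            exact ⟨w, fun _ => hw, fun h => absurd h h0, fun h => absurd h hN⟩
          · exact ⟨ψ, fun h => absurd h hi, fun h => absurd h h0, fun h => absurd h hN⟩
    have hXex : ∀ i : ℕ, ∃ w : Fin (n + 1) → ℝ,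
        (i ≤ N → ∀ k, cmass K (site y y' N i) w k = m' k) ∧ (i = N → w = χ') := by
      intro i
      by_cases hN : i = N
      · refine ⟨χ', fun _ k => ?_, fun _ => rfl⟩
        rw [hN, site_self y y' N hNpos]
        exact hχ' k
      · by_cases hi : i ≤ N
        · obtain ⟨w, hw⟩ := hex (site y y' N i) (hinj i hi) m' hm'pos hm'sum
          exact ⟨w, fun _ => hw, fun h => absurd h hN⟩
        · exact ⟨χ', fun h => absurd h hi, fun h => absurd h hN⟩
    choose Ψ hΨ1 hΨ2 hΨ3 using hΨex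
    choose X hX1 hX2 using hXex
    have hcb := chain_bound hK hint C hcen N hNpos y y' m m' hpos hclose Ψ X hinj
      (fun i hi => hΨ1 i hi) (fun i hi => hX1 i hi)
    rw [hX2 N rfl, hΨ2 0 rfl, hΨ3 N rfl, site_self y y' N hNpos, site_zero] at hcb
    have e1 : ∑ k, (m' k - m k) * (χ' k - ψ k) = ε * ∑ k, η k * (χ' k - ψ k) := by
      rw [Finset.mul_sum]
      refine Finset.sum_congr rfl fun k _ => ?_
      simp only [hm']
      ring
    have e2 : C * (∑ k, (m' k - m k) ^ 2 / m k) * (∑ k, m k * ‖y' k - y k‖ ^ 2)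
        = ε ^ 2 * (C * (∑ k, η k ^ 2 / m k) * (∑ k, m k * ‖y' k - y k‖ ^ 2)) := by
      have : ∑ k, (m' k - m k) ^ 2 / m k = ε ^ 2 * ∑ k, η k ^ 2 / m k := by
        rw [Finset.mul_sum]
        refine Finset.sum_congr rfl fun k _ => ?_
        simp only [hm']
        ring
      rw [this]
      ring
    have e3 : Real.sqrt (ε ^ 2 * (C * (∑ k, η k ^ 2 / m k) * (∑ k, m k * ‖y' k - y k‖ ^ 2)))
        = ε * R := by
      rw [Real.sqrt_mul (sq_nonneg ε), Real.sqrt_sq hε.le]
    rw [e1, e2, e3] at hcb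
    exact hcb
  by_contra hcon
  have hgap : 0 < ε * (∑ k, η k * (χ' k - ψ k) - R) := mul_pos hε (by linarith [not_le.mp hcon])
  set g := ε * (∑ k, η k * (χ' k - ψ k) - R) with hg
  obtain ⟨N, hN0, hNpos, hN⟩ := key (Nat.ceil (|B| / g) + 1)
  have hNr : (0 : ℝ) < N := by exact_mod_cast hNpos
  have h1 : |B| / g < N := by
    have := Nat.le_ceil (|B| / g)
    have h2 : ((Nat.ceil (|B| / g) + 1 : ℕ) : ℝ) ≤ N := by exact_mod_cast hN0
    push_cast at h2
    linarith
  have h3 : B / N < g := by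
    have h4 : |B| < N * g := by
      rw [div_lt_iff₀ hgap] at h1
      exact h1
    rw [div_lt_iff₀ hNr]
    calc B ≤ |B| := le_abs_self B
      _ < N * g := h4
      _ = g * N := by ring
  have h5 : ε * ∑ k, η k * (χ' k - ψ k) = ε * R + g := by
    rw [hg]
    ring
  linarith

/-- Duality form of the Lipschitz estimate: every mean-zero test vector `η`. -/
lemma dual_bound {K : Set (E d)} (hK : IsCompact K) (hint : (interior K).Nonempty) (C : ℝ)
    (hcen : ∀ (y : Fin (n + 1) → E d) (ψ ψ' : Fin (n + 1) → ℝ), Function.Injective y →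
      (∀ k, 0 < cmass K y ψ k) →
      (∀ k, |cmass K y ψ' k - cmass K y ψ k| ≤ cmass K y ψ k / 2) →
      ∑ k, ‖cmom K y ψ' k - cmom K y ψ k‖ ^ 2 / cmass K y ψ k
        ≤ C * ∑ k, (cmass K y ψ' k - cmass K y ψ k) ^ 2 / cmass K y ψ k)
    (hex : ∀ y : Fin (n + 1) → E d, Function.Injective y →
      ∀ m : Fin (n + 1) → ℝ, (∀ k, 0 < m k) → ∑ k, m k = 1 →
        ∃ ψ : Fin (n + 1) → ℝ, ∀ k, cmass K y ψ k = m k)
    (hcont : ∀ y : Fin (n + 1) → E d, Function.Injective y →
      ∀ ψ : Fin (n + 1) → ℝ, (∀ k, 0 < cmass K y ψ k) → ∀ δ : ℝ, 0 < δ →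
        ∃ θ : ℝ, 0 < θ ∧ ∀ ψ' : Fin (n + 1) → ℝ,
          ∑ k, |cmass K y ψ' k - cmass K y ψ k| < θ → ∃ c : ℝ, ∀ k, |ψ' k - ψ k - c| < δ)
    (y y' : Fin (n + 1) → E d) (ψ ψ' : Fin (n + 1) → ℝ) (hy : Function.Injective y)
    (hy' : Function.Injective y') (hpos : ∀ k, 0 < cmass K y ψ k)
    (hmass : ∀ k, cmass K y' ψ' k = cmass K y ψ k)
    (η : Fin (n + 1) → ℝ) (hη : ∑ k, η k = 0) :
    ∑ k, η k * (ψ' k - ψ k)
      ≤ Real.sqrt (C * (∑ k, η k ^ 2 / cmass K y ψ k)
          * (∑ k, cmass K y ψ k * ‖y' k - y k‖ ^ 2)) := by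
  set m : Fin (n + 1) → ℝ := fun k => cmass K y ψ k with hm
  have hmsum : ∑ k, m k = 1 := sum_cmass hK hint hy ψ
  refine le_of_forall_pos_le_add fun e he => ?_
  set A : ℝ := ∑ k, |η k| + 1 with hA
  have hApos : 0 < A := by
    have : 0 ≤ ∑ k, |η k| := Finset.sum_nonneg fun k _ => abs_nonneg _
    linarith
  have hηA : ∀ k, |η k| ≤ A := by
    intro k
    have : |η k| ≤ ∑ j, |η j| :=
      Finset.single_le_sum (f := fun j => |η j|) (fun j _ => abs_nonneg _) (Finset.mem_univ k)
    linarith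
  set δ : ℝ := e / A with hδ
  have hδpos : 0 < δ := div_pos he hApos
  obtain ⟨θ, hθ, hcontθ⟩ := hcont y' hy' ψ' (fun k => by rw [hmass k]; exact hpos k) δ hδpos
  obtain ⟨k₀, -, hk₀⟩ := Finset.exists_min_image Finset.univ m Finset.univ_nonempty
  have hm₀ : 0 < m k₀ := hpos k₀
  set ε : ℝ := min θ (m k₀) / (2 * A) with hε
  have hεpos : 0 < ε := div_pos (lt_min hθ hm₀) (by linarith)
  have hεA1 : ε * A ≤ m k₀ / 2 := by
    rw [hε, div_mul_eq_mul_div, div_le_div_iff₀ (by linarith) (by norm_num)]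
    have := min_le_right θ (m k₀)
    nlinarith
  have hεA2 : ε * A ≤ θ / 2 := by
    rw [hε, div_mul_eq_mul_div, div_le_div_iff₀ (by linarith) (by norm_num)]
    have := min_le_left θ (m k₀)
    nlinarith
  have hεη : ∀ k, ε * |η k| ≤ m k / 2 := by
    intro k
    have h1 : ε * |η k| ≤ ε * A := mul_le_mul_of_nonneg_left (hηA k) hεpos.le
    have h2 := hk₀ k (Finset.mem_univ k)
    linarith
  have habs : ∀ k, |ε * η k| = ε * |η k| := fun k => by rw [abs_mul, abs_of_pos hεpos]
  have hm'pos : ∀ k, 0 < m k + ε * η k := by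
    intro k
    have h1 := hεη k
    have h2 := neg_abs_le (ε * η k)
    have h3 : 0 < m k := hpos k
    rw [habs k] at h2
    linarith
  have hm'sum : ∑ k, (m k + ε * η k) = 1 := by
    simp only [Finset.sum_add_distrib, ← Finset.mul_sum, hη, mul_zero, add_zero, hmsum]
  obtain ⟨χ', hχ'⟩ := hex y' hy' (fun k => m k + ε * η k) hm'pos hm'sum
  have hstep := step_eps hK hint C hcen hex y y' ψ ψ' hy hy' hpos hmass η hη ε hεpos hεη χ' hχ'
  have hsmall : ∑ k, |cmass K y' χ' k - cmass K y' ψ' k| < θ := by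
    have e1 : ∀ k, |cmass K y' χ' k - cmass K y' ψ' k| = ε * |η k| := by
      intro k
      rw [hχ' k, hmass k, add_sub_cancel_left, habs k]
    simp only [e1]
    rw [← Finset.mul_sum]
    have : ε * ∑ k, |η k| ≤ ε * A := mul_le_mul_of_nonneg_left (by linarith) hεpos.le
    linarith
  obtain ⟨c, hc⟩ := hcontθ χ' hsmall
  have e2 : ∑ k, η k * (ψ' k - ψ k)
      = ∑ k, η k * (χ' k - ψ k) - ∑ k, η k * (χ' k - ψ' k - c) := by
    have : ∑ k, η k * (χ' k - ψ k) - ∑ k, η k * (χ' k - ψ' k - c)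
        = ∑ k, η k * (ψ' k - ψ k) + c * ∑ k, η k := by
      rw [← Finset.sum_sub_distrib, Finset.mul_sum, ← Finset.sum_add_distrib]
      exact Finset.sum_congr rfl fun k _ => by ring
    rw [this, hη, mul_zero, add_zero]
  have e3 : -∑ k, η k * (χ' k - ψ' k - c) ≤ e := by
    have h1 : -∑ k, η k * (χ' k - ψ' k - c) ≤ ∑ k, |η k| * δ := by
      rw [← Finset.sum_neg_distrib]
      refine Finset.sum_le_sum fun k _ => ?_
      have h2 : -(η k * (χ' k - ψ' k - c)) ≤ |η k * (χ' k - ψ' k - c)| := neg_le_abs _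
      rw [abs_mul] at h2
      exact h2.trans (mul_le_mul_of_nonneg_left (hc k).le (abs_nonneg _))
    have h3 : ∑ k, |η k| * δ ≤ A * δ := by
      rw [← Finset.sum_mul]
      exact mul_le_mul_of_nonneg_right (by linarith) hδpos.le
    have h4 : A * δ = e := by
      rw [hδ]
      field_simp
    linarith
  rw [e2]
  linarith

end Vale.Agent.Lib.P074.Lip

namespace Vale.Agent.Lib.P074

/-- The weights of a power diagram with fixed cell masses are Lipschitz in the sites: this
follows from the centroid inequality, the existence of power diagrams with prescribed masses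
and the continuity of the weights in the masses. -/
theorem lip_of_centroid (d : ℕ) (hcen : CentroidStatement d) (hex : ExStatement d)
    (hcont : ContStatement d) : LipStatement d := by
  intro K hK hconv hint
  obtain ⟨C, hC, hcenK⟩ := hcen K hK hconv hint
  refine ⟨C, hC, ?_⟩
  intro n y y' ψ ψ' hy hy' hpos hmass
  set m : Fin (n + 1) → ℝ := fun k => cmass K y ψ k with hm
  have hmsum : ∑ k, m k = 1 := sum_cmass hK hint hy ψ
  set cbar : ℝ := ∑ k, m k * (ψ' k - ψ k) with hcbar
  refine ⟨cbar, ?_⟩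
  set η : Fin (n + 1) → ℝ := fun k => m k * (ψ' k - ψ k - cbar) with hη
  have hη0 : ∑ k, η k = 0 := by
    have : ∑ k, η k = ∑ k, m k * (ψ' k - ψ k) - cbar * ∑ k, m k := by
      rw [Finset.mul_sum, ← Finset.sum_sub_distrib]
      exact Finset.sum_congr rfl fun k _ => by simp only [hη]; ring
    rw [this, hmsum, mul_one, hcbar, sub_self]
  have hdual := Lip.dual_bound hK hint C (fun y ψ ψ' => hcenK n y ψ ψ') (hex K hK hconv hint n)
    (hcont K hK hconv hint n) y y' ψ ψ' hy hy' hpos hmass η hη0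
  set V : ℝ := ∑ k, m k * (ψ' k - ψ k - cbar) ^ 2 with hV
  set Y : ℝ := ∑ k, m k * ‖y' k - y k‖ ^ 2 with hY
  have hV1 : ∑ k, η k * (ψ' k - ψ k) = V := by
    have : ∑ k, η k * (ψ' k - ψ k) = V + cbar * ∑ k, η k := by
      rw [hV, Finset.mul_sum, ← Finset.sum_add_distrib]
      exact Finset.sum_congr rfl fun k _ => by simp only [hη]; ring
    rw [this, hη0, mul_zero, add_zero]
  have hV2 : ∑ k, η k ^ 2 / m k = V := by
    rw [hV]
    refine Finset.sum_congr rfl fun k _ => ?_
    have : m k ≠ 0 := (hpos k).ne'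
    simp only [hη]
    field_simp
  rw [hV1, hV2] at hdual
  have hY0 : 0 ≤ Y := Finset.sum_nonneg fun k _ => mul_nonneg (hpos k).le (sq_nonneg _)
  have hV0 : 0 ≤ V := Finset.sum_nonneg fun k _ => mul_nonneg (hpos k).le (sq_nonneg _)
  show V ≤ C * Y
  rcases hV0.eq_or_lt with h0 | hVpos
  · rw [← h0]
    exact mul_nonneg hC hY0
  · have hsq : V ^ 2 ≤ C * V * Y := (Real.le_sqrt' hVpos).mp hdual
    have : V * V ≤ V * (C * Y) := by nlinarith
    exact le_of_mul_le_mul_left this hVpos

end Vale.Agent.Lib.P074
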